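import Vale.Agent.P101.DimDrop.Model

/-!
P101: the closed algebra generated by `(yModel, y)` and `(sModel, s)` projects injectively to
the model. The interior is detected by six intertwining vectors, the two endpoints modulo
the annihilator of the kernel.
-/

namespace Vale.Agent.P101.DimDrop

open scoped Matrix Matrix.Norms.L2Operator unitInterval

universe u

variable {F : Type u} [CStarAlgebra F] {y s : F}

/-- The generators of the graph algebra. -/
noncomputable def gens (y s : F) : Set (C(I, Fib) × F) := {(yModel, y), (sModel, s)}

/-- The graph algebra. -/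
noncomputable def graph (y s : F) : StarSubalgebra ℂ (C(I, Fib) × F) :=
  (StarAlgebra.adjoin ℂ (gens y s)).topologicalClosure

/-- The elements killed from the left by the kernel of the projection to the model. -/
def ann (y s : F) : Submodule ℂ F where
  carrier := {x | ∀ g ∈ graph y s, g.1 = 0 → g.2 * x = 0}
  add_mem' := fun ha hb g hg hg0 => by rw [mul_add, ha g hg hg0, hb g hg hg0, add_zero]
  zero_mem' := fun g _ _ => mul_zero _
  smul_mem' := fun r a ha g hg hg0 => by rw [mul_smul_comm, ha g hg hg0, smul_zero]

lemma ann_closed : IsClosed (ann y s : Set F) := by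
  show IsClosed {x : F | ∀ g ∈ graph y s, g.1 = 0 → g.2 * x = 0}
  simp only [Set.ofPred_forall]
  exact isClosed_iInter fun g => isClosed_iInter fun _ => isClosed_iInter fun _ =>
    isClosed_eq (continuous_const.mul continuous_id) continuous_const

lemma ann_right {x : F} (hx : x ∈ ann y s) (z : F) : x * z ∈ ann y s := by
  intro g hg hg0
  rw [← mul_assoc, hx g hg hg0, zero_mul]

/-- The second components of the graph algebra. -/
def InGraph (y s x : F) : Prop := ∃ g ∈ graph y s, g.2 = x

lemma inGraph_y : InGraph y s y :=
  ⟨(yModel, y), StarSubalgebra.le_topologicalClosure _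
    (StarAlgebra.subset_adjoin _ _ (Or.inl rfl)), rfl⟩

lemma inGraph_s : InGraph y s s :=
  ⟨(sModel, s), StarSubalgebra.le_topologicalClosure _
    (StarAlgebra.subset_adjoin _ _ (Or.inr rfl)), rfl⟩

lemma inGraph_one : InGraph y s (1 : F) := ⟨1, one_mem _, rfl⟩

lemma InGraph.mul {a b : F} (ha : InGraph y s a) (hb : InGraph y s b) : InGraph y s (a * b) := by
  obtain ⟨g, hg, rfl⟩ := ha
  obtain ⟨k, hk, rfl⟩ := hb
  exact ⟨g * k, mul_mem hg hk, rfl⟩

lemma InGraph.sub {a b : F} (ha : InGraph y s a) (hb : InGraph y s b) : InGraph y s (a - b) := by
  obtain ⟨g, hg, rfl⟩ := ha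
  obtain ⟨k, hk, rfl⟩ := hb
  exact ⟨g - k, sub_mem hg hk, rfl⟩

lemma InGraph.star {a : F} (ha : InGraph y s a) : InGraph y s (star a) := by
  obtain ⟨g, hg, rfl⟩ := ha
  exact ⟨_, star_mem hg, rfl⟩

lemma ann_left {a x : F} (ha : InGraph y s a) (hx : x ∈ ann y s) : a * x ∈ ann y s := by
  obtain ⟨k, hk, rfl⟩ := ha
  intro g hg hg0
  rw [← mul_assoc]
  exact hx (g * k) (mul_mem hg hk) (by simp [hg0])

/-- If `star a * a` is annihilated then so is `star a`. -/
lemma ann_of_star_mul {a : F} (ha : star a * a ∈ ann y s) : star a ∈ ann y s := by
  intro g hg hg0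
  rw [← CStarRing.mul_star_self_eq_zero_iff, star_mul, star_star]
  calc g.2 * star a * (a * star g.2) = g.2 * (star a * a) * star g.2 := by noncomm_ring
    _ = 0 := by rw [ha g hg hg0, zero_mul]

lemma ann_star {a : F} (hag : InGraph y s a) (ha : a ∈ ann y s) : star a ∈ ann y s :=
  ann_of_star_mul (ann_left hag.star ha)

section

variable (h : DropRelations y s)

/-- The six interior intertwining vectors. -/
noncomputable def interior : Idx → F := fun i =>
  (![1, s, y * s] : Fin 3 → F) i.2 *
    ((![star y * y, y * calc01 h rootS] : Fin 2 → F) i.1 *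
      calc01 h ((![coord, rootT, rootT] : Fin 3 → C(I, ℂ)) i.2))

/-- The endpoint vectors at `t = 1`. -/
def endOne (y s : F) : Idx → F := fun i =>
  if i.1 = 0 then (![defect y, s * defect y, y * s * defect y] : Fin 3 → F) i.2 else 0

/-- The endpoint vectors at `t = 0`. -/
def endZero (y s : F) : Idx → F := fun i =>
  if i.2 = 0 then (![star y * y - s * star s, y * (star y * y - s * star s)] : Fin 2 → F) i.1
  else 0

/-- Evaluation at a point, as scalars in `F`. -/
noncomputable def evalScalar (F : Type u) [CStarAlgebra F] (t : I) : C(I, ℂ) →⋆ₐ[ℂ] F :=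
  (StarAlgHom.ofId ℂ F).comp (ContinuousMap.evalStarAlgHom ℂ ℂ t)

lemma evalScalar_apply (t : I) (f : C(I, ℂ)) :
    evalScalar F t f = algebraMap ℂ F (f t) := rfl

lemma evalScalar_continuous (t : I) : Continuous (evalScalar F t) :=
  (continuous_algebraMap ℂ F).comp (continuous_eval_const t)

lemma gens_cases {g : C(I, Fib) × F} (hg : g ∈ gens y s ∪ star (gens y s)) :
    g = (yModel, y) ∨ g = (sModel, s) ∨ g = (star yModel, star y) ∨
      g = (star sModel, star s) := by
  rcases hg with hg | hg
  · rcases hg with hg | hg
    · exact Or.inl hg
    · exact Or.inr (Or.inl hg)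
  · have hg2 : star g ∈ gens y s := hg
    rcases hg2 with hg2 | hg2
    · refine Or.inr (Or.inr (Or.inl ?_))
      rw [← star_star g, hg2]
      rfl
    · refine Or.inr (Or.inr (Or.inr ?_))
      rw [← star_star g, Set.mem_singleton_iff.1 hg2]
      rfl

include h

lemma interior_gen {g : C(I, Fib) × F} (hg : g ∈ gens y s ∪ star (gens y s)) (j : Idx) :
    g.2 * interior h j - column (calc01 h) (interior h) g.1 j ∈ (⊥ : Submodule ℂ F) := by
  rw [Submodule.mem_bot, sub_eq_zero]
  have hS := (calc01_defect h rootS).eq
  have hT := (calc01_defect h rootT).eq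
  have hTT := calc01_mul_self_rootT h
  have hSS := calc01_mul_self_rootS h
  rcases gens_cases hg with rfl | rfl | rfl | rfl <;> obtain ⟨p, q⟩ := j <;>
    fin_cases p <;> fin_cases q <;>
    simp [interior, yModel, sModel, star_add, star_unit, star_rootS, star_rootT, column_add, column_unit,
      Prod.ext_iff, calc01_coord h]
  all_goals try simp only [← mul_assoc, yy h, star_yy h, ss h, sys h, star_y_s h, star_s_y h,
    P_s h, star_s_s h, zero_mul]
  · rw [mul_assoc y (star y) y, y_P h, mul_assoc y _ (defect y), hS, mul_assoc y,
      mul_assoc (defect y), hSS, sub_mul, one_mul, defect_y h]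
    noncomm_ring
  · simp only [mul_assoc]
    rw [hTT]
  · simp only [mul_assoc]
    rw [hTT]
  · rw [mul_assoc _ _ (defect y), hS, ← mul_assoc]
  · rw [mul_assoc (star s), star_s_P h, star_s_defect h]
  · rw [mul_assoc (defect y), defect_P h]
  · rw [defect_y h, mul_assoc y _ (calc01 h rootS), ← hS, ← mul_assoc y]

lemma ann_interior : defect y * (1 - defect y) ∈ ann y s := by
  intro g hg hg0
  have hint : ∀ j, g.2 * interior h j = 0 := fun j => by
    have h1 := intertwine (calc01 h) (interior h) (N := ⊥)
      (isClosed_singleton (x := (0 : F)))
      (fun x hx z => by simp [(Submodule.mem_bot ℂ).1 hx])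
      (fun a _ x hx => by simp [(Submodule.mem_bot ℂ).1 hx])
      (calc01_continuous h) (fun a ha => interior_gen h ha) hg j
    rw [Submodule.mem_bot, sub_eq_zero] at h1
    rw [h1, hg0]
    refine Finset.sum_eq_zero fun i _ => ?_
    rw [show entry i j (0 : C(I, Fib)) = 0 by ext t; simp, map_zero, mul_zero]
  have hd := (isSelfAdjoint_defect h).star_eq
  have h0 : interior h (0, 0) = star y * y * defect y := by simp [interior, calc01_coord h]
  have h1 : interior h (1, 0) = y * calc01 h rootS * defect y := by
    simp [interior, calc01_coord h]
  have hS : star (calc01 h rootS) = calc01 h rootS := by rw [← map_star, star_rootS]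
  have e : interior h (0, 0) * star (interior h (0, 0)) +
      interior h (1, 0) * star (interior h (1, 0)) =
      defect y * (1 - defect y) * star (defect y * (1 - defect y)) := by
    rw [h0, h1]
    simp only [star_mul, star_star, star_sub, star_one, hd, hS]
    have e1 : star y * y * defect y * (defect y * (star y * y)) =
        defect y * defect y * ((1 - defect y) * (star y * y)) := by
      have hc : Commute (star y * y) (defect y) := (defect_P h).symm
      rw [← P_sq h, ← mul_assoc, mul_assoc (star y * y) (defect y), (hc.mul_right hc).eq,
        mul_assoc]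
    have e2 : y * calc01 h rootS * defect y * (defect y * (calc01 h rootS * star y)) =
        defect y * defect y * ((1 - defect y) * (y * star y)) := by
      have c := calc01_defect h rootS
      calc y * calc01 h rootS * defect y * (defect y * (calc01 h rootS * star y))
          = y * (calc01 h rootS * (defect y * defect y * calc01 h rootS)) * star y := by
            noncomm_ring
        _ = y * (defect y * defect y * (1 - defect y)) * star y := by
            rw [← ((c.mul_right c).eq), ← mul_assoc (calc01 h rootS), calc01_mul_self_rootS h]
            noncomm_ring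
        _ = defect y * defect y * ((1 - defect y) * (y * star y)) := by
            have hc : Commute y (defect y * defect y * (1 - defect y)) := by
              have hc1 : Commute y (defect y) := (defect_y h).symm
              exact (hc1.mul_right hc1).mul_right ((Commute.one_right y).sub_right hc1)
            rw [hc.eq]
            noncomm_ring
    rw [e1, e2, ← mul_add, ← mul_add, show star y * y + y * star y = 1 - defect y by
      rw [defect]; abel]
    noncomm_ring
  have h2 : g.2 * (defect y * (1 - defect y) * star (defect y * (1 - defect y))) = 0 := by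
    rw [← e, mul_add, ← mul_assoc, ← mul_assoc, hint, hint, zero_mul, zero_mul, add_zero]
  rw [← CStarRing.mul_star_self_eq_zero_iff, star_mul]
  calc g.2 * (defect y * (1 - defect y)) * (star (defect y * (1 - defect y)) * star g.2)
      = g.2 * (defect y * (1 - defect y) * star (defect y * (1 - defect y))) * star g.2 := by
        noncomm_ring
    _ = 0 := by rw [h2, zero_mul]

lemma ann_P_defect : star y * y * defect y ∈ ann y s := by
  have hd := (isSelfAdjoint_defect h).star_eq
  have hs : star (star y * y * defect y) = star y * y * defect y := by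
    rw [star_mul, hd, star_mul, star_star, ← defect_P h]
  rw [← hs]
  refine ann_of_star_mul ?_
  rw [hs]
  have e : star y * y * defect y * (star y * y * defect y) =
      defect y * (1 - defect y) * (star y * y * defect y) := by
    calc star y * y * defect y * (star y * y * defect y)
        = star y * y * (defect y * (star y * y)) * defect y := by noncomm_ring
      _ = star y * y * (star y * y) * defect y * defect y := by rw [defect_P h]; noncomm_ring
      _ = (1 - defect y) * (star y * y * defect y) * defect y := by rw [P_sq h]; noncomm_ring
      _ = (1 - defect y) * defect y * (star y * y * defect y) := by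
          rw [← defect_P h]
          simp only [mul_assoc]
          rw [← mul_assoc (star y) y (defect y), ← defect_P h]
      _ = _ := by noncomm_ring
  rw [e]
  exact ann_right (ann_interior h) _

lemma ann_y_defect : y * defect y ∈ ann y s := by
  have hd := (isSelfAdjoint_defect h).star_eq
  have hg : InGraph y s (defect y) :=
    (inGraph_one.sub (inGraph_y.star.mul inGraph_y)).sub (inGraph_y.mul inGraph_y.star)
  have h1 : star (y * defect y) ∈ ann y s := by
    refine ann_of_star_mul ?_
    rw [star_mul, hd, show defect y * star y * (y * defect y) =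
      defect y * (star y * y) * defect y by noncomm_ring, defect_P h]
    exact ann_right (ann_P_defect h) _
  simpa using ann_star (inGraph_y.mul hg).star h1

lemma ann_s_sub : s * (1 - defect y) ∈ ann y s ∧ (1 - defect y) * star s ∈ ann y s := by
  have hd := (isSelfAdjoint_defect h).star_eq
  have hg : InGraph y s (s * (1 - defect y)) :=
    inGraph_s.mul (inGraph_one.sub
      ((inGraph_one.sub (inGraph_y.star.mul inGraph_y)).sub (inGraph_y.mul inGraph_y.star)))
  have h1 : star (s * (1 - defect y)) ∈ ann y s := by
    refine ann_of_star_mul ?_
    rw [star_mul, star_sub, star_one, hd, show (1 - defect y) * star s * (s * (1 - defect y)) =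
      (1 - defect y) * (star s * s) * (1 - defect y) by noncomm_ring, star_s_s h,
      show (1 - defect y) * defect y = defect y * (1 - defect y) by noncomm_ring]
    exact ann_right (ann_interior h) _
  refine ⟨?_, ?_⟩
  · simpa only [star_star] using ann_star hg.star h1
  · simpa only [star_mul, star_sub, star_one, hd] using h1

lemma ann_s_mul {a : F} (ha : InGraph y s a) (h1 : star a * defect y * a ∈ ann y s) :
    s * a ∈ ann y s := by
  have h2 : star (s * a) ∈ ann y s := by
    refine ann_of_star_mul ?_
    rwa [star_mul, mul_assoc, ← mul_assoc (star s), star_s_s h, ← mul_assoc]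
  simpa using ann_star (inGraph_s.mul ha).star h2

lemma endOne_gen {g : C(I, Fib) × F} (hg : g ∈ gens y s ∪ star (gens y s)) (j : Idx) :
    g.2 * endOne y s j - column (evalScalar F 1) (endOne y s) g.1 j ∈ ann y s := by
  have hd := (isSelfAdjoint_defect h).star_eq
  rcases gens_cases hg with rfl | rfl | rfl | rfl <;> obtain ⟨p, q⟩ := j <;>
    fin_cases p <;> fin_cases q <;>
    simp [endOne, yModel, sModel, star_add, star_unit, column_add, column_unit,
      Prod.ext_iff, evalScalar_apply, rootS, rootT]
  all_goals try simp only [← mul_assoc, yy h, ss h, sys h, star_y_s h, star_s_y h, P_s h,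
    star_s_s h, star_s_defect h, zero_mul, sub_self]
  all_goals try exact zero_mem _
  · exact ann_y_defect h
  · rw [← defect_star_y h, show defect y * star y = star (y * defect y) by rw [star_mul, hd]]
    exact ann_star (inGraph_y.mul ((inGraph_one.sub (inGraph_y.star.mul inGraph_y)).sub
      (inGraph_y.mul inGraph_y.star))) (ann_y_defect h)
  · rw [show defect y * defect y - defect y = -(defect y * (1 - defect y)) by noncomm_ring]
    exact neg_mem (ann_interior h)

lemma endZero_gen {g : C(I, Fib) × F} (hg : g ∈ gens y s ∪ star (gens y s)) (j : Idx) :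
    g.2 * endZero y s j - column (evalScalar F 0) (endZero y s) g.1 j ∈ ann y s := by
  rcases gens_cases hg with rfl | rfl | rfl | rfl <;> obtain ⟨p, q⟩ := j <;>
    fin_cases p <;> fin_cases q <;>
    simp [endZero, yModel, sModel, star_add, star_unit, column_add, column_unit,
      Prod.ext_iff, evalScalar_apply, rootS, rootT]
  all_goals try simp only [mul_sub, ← mul_assoc, yy h, star_yy h, ss h, sys h, star_y_s h,
    star_s_y h, zero_mul, sub_zero, sub_self]
  all_goals try exact zero_mem _
  · rw [mul_assoc]
    refine ann_s_mul h (inGraph_y.star.mul inGraph_y) ?_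
    rw [star_mul, star_star]
    exact ann_right (ann_P_defect h) _
  · rw [mul_assoc (s * y)]
    refine ann_right (ann_s_mul h inGraph_y ?_) _
    rw [mul_assoc, defect_y h, ← mul_assoc]
    exact ann_P_defect h
  · rw [P_s h, sub_sub_sub_cancel_right, mul_assoc (star y * y), P_sq h, sub_mul, one_mul,
      sub_sub_cancel_left, defect_P h]
    exact neg_mem (ann_P_defect h)
  · rw [mul_assoc (star s), star_s_P h, star_s_s h,
      show star s - defect y * star s = (1 - defect y) * star s by noncomm_ring]
    exact (ann_s_sub h).2

/-- The projection of the graph algebra to the model is injective. -/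
theorem graph_snd_eq_zero {g : C(I, Fib) × F} (hg : g ∈ graph y s) (hg0 : g.1 = 0) : g.2 = 0 := by
  have hend : ∀ (t : I) (u : Idx → F),
      (∀ a ∈ gens y s ∪ star (gens y s), ∀ j,
        a.2 * u j - column (evalScalar F t) u a.1 j ∈ ann y s) →
      ∀ j z, g.2 * (u j * z) ∈ ann y s := by
    intro t u hu j z
    have h1 := intertwine (evalScalar F t) u ann_closed (fun x hx z => ann_right hx z)
      (fun a ha x hx => ann_left ⟨a, StarSubalgebra.le_topologicalClosure _ ha, rfl⟩ hx)
      (evalScalar_continuous t) hu hg j
    rw [← mul_assoc]
    refine ann_right ?_ z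
    simpa [column, hg0, evalScalar_apply] using h1
  have hg2 : InGraph y s g.2 := ⟨g, hg, rfl⟩
  have hd := (isSelfAdjoint_defect h).star_eq
  set d := defect y with hdd
  set w := star y * y - s * star s with hw
  have hA : s * (d * d) * star s - s * star s ∈ ann y s := by
    rw [show s * (d * d) * star s - s * star s = -(s * (1 - d) * ((1 + d) * star s)) by
      noncomm_ring]
    exact neg_mem (ann_right (ann_s_sub h).1 _)
  have hB : w * w - w ∈ ann y s := by
    have e : w * w - w = -(star y * y * d) - s * (1 - d) * star s := by
      rw [hw, mul_sub, sub_mul, sub_mul, P_sq h, ← mul_assoc (star y * y), P_s h,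
        mul_assoc s (star s) (star y * y), star_s_P h,
        show s * star s * (s * star s) = s * (star s * s) * star s by noncomm_ring, star_s_s h,
        ← hdd, sub_mul, one_mul, defect_P h]
      noncomm_ring
    rw [e]
    exact sub_mem (neg_mem (ann_P_defect h)) (ann_right (ann_s_sub h).1 _)
  have hE : (1 : F) =
      (d * d + (s * d) * star (s * d) + (y * s * d) * star (y * s * d)) +
        (w * star w + (y * w) * star (y * w)) +
      (d * (1 - d) - (s * (d * d) * star s - s * star s) -
        y * (s * (d * d) * star s - s * star s) * star y -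
        (w * w - w) - y * (w * w - w) * star y + y * d * star y) := by
    have hws : star w = w := by simp [hw]
    have hQ : y * star y - y * (star y * y) * star y = y * d * star y := by
      rw [hdd, defect, show y * (1 - star y * y - y * star y) * star y =
        y * star y - y * (star y * y) * star y - y * y * (star y * star y) by noncomm_ring,
        yy h, zero_mul, sub_zero]
    have h1 : (1 : F) = d + star y * y + y * star y := by rw [hdd, defect]; abel
    simp only [star_mul, hd, hws]
    rw [← hQ]
    conv_lhs => rw [h1]
    rw [hw]
    noncomm_ring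
  have h0 : g.2 ∈ ann y s := by
    rw [← mul_one g.2, hE, mul_add, mul_add, mul_add, mul_add, mul_add]
    refine add_mem (add_mem (add_mem (add_mem ?_ ?_) ?_) (add_mem ?_ ?_)) (ann_left hg2 ?_)
    · simpa [endOne] using hend 1 _ (fun a ha => endOne_gen h ha) (0, 0) d
    · simpa [endOne] using hend 1 _ (fun a ha => endOne_gen h ha) (0, 1) (star (s * d))
    · simpa [endOne] using hend 1 _ (fun a ha => endOne_gen h ha) (0, 2) (star (y * s * d))
    · simpa [endZero] using hend 0 _ (fun a ha => endZero_gen h ha) (0, 0) (star w)
    · simpa [endZero] using hend 0 _ (fun a ha => endZero_gen h ha) (1, 0) (star (y * w))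
    · exact add_mem (sub_mem (sub_mem (sub_mem (sub_mem (ann_interior h) hA)
        (ann_right (ann_left inGraph_y hA) _)) hB) (ann_right (ann_left inGraph_y hB) _))
        (ann_right (ann_y_defect h) _)
  rw [← CStarRing.star_mul_self_eq_zero_iff]
  exact h0 _ (star_mem hg) (by simp [hg0])

end

end Vale.Agent.P101.DimDrop
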