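import Vale.Agent.P101.DimDrop.Model

/-!
P101: the model pair satisfies the relations, and a unitary path between the identity and a
transposition, which moves the model to the standard form of Z(2,3).
-/

namespace Vale.Agent.P101.DimDrop

open scoped Matrix Matrix.Norms.L2Operator Kronecker unitInterval

/-- Scalar functions as central elements of the field algebra. -/
noncomputable def scal : C(I, ℂ) →⋆ₐ[ℂ] C(I, Fib) :=
  ContinuousMap.compStarAlgHom I (StarAlgHom.ofId ℂ Fib) (continuous_algebraMap ℂ Fib)

lemma scal_apply (c : C(I, ℂ)) (t : I) : scal c t = algebraMap ℂ Fib (c t) := rfl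

lemma scal_comm (c : C(I, ℂ)) (f : C(I, Fib)) : scal c * f = f * scal c := by
  ext t : 1
  simp [scal_apply, Algebra.commutes]

lemma scal_continuous : Continuous scal := ContinuousMap.continuous_postcomp _

lemma scal_mul_unit (i j : Idx) (c h : C(I, ℂ)) : scal c * unit i j h = unit i j (c * h) := by
  ext t : 1
  simp [scal_apply, ← Algebra.smul_def, Matrix.smul_single]

lemma defect_yModel : defect yModel = unit (0, 0) (0, 0) coord + unit (1, 0) (1, 0) coord := by
  have hS : rootS * rootS = 1 - coord := rootS_mul_self
  simp only [defect, star_yModel]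
  simp only [yModel, add_mul, mul_add, ne_eq, Prod.mk.injEq, zero_ne_one, one_ne_zero,
    Fin.reduceEq, false_and, and_false, not_false_eq_true, unit_mul_unit,
    unit_mul_unit_of_ne, hS, add_zero, zero_add, mul_one]
  ext t ⟨i₁, i₂⟩ ⟨j₁, j₂⟩
  fin_cases i₁ <;> fin_cases i₂ <;> fin_cases j₁ <;> fin_cases j₂ <;>
    simp [Matrix.single, coord]

lemma model_relations : DropRelations yModel sModel := by
  refine ⟨?_, ?_, ?_⟩
  · simp [yModel, add_mul, mul_add, unit_mul_unit_of_ne]
  · rw [show 1 - star yModel * yModel - yModel * star yModel = defect yModel from rfl,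
      defect_yModel, star_sModel]
    simp [sModel, add_mul, mul_add, unit_mul_unit, unit_mul_unit_of_ne, rootT_mul_self]
  · rw [star_yModel]
    simp [yModel, sModel, add_mul, mul_add, unit_mul_unit, unit_mul_unit_of_ne]

lemma scal_coord : scal coord = defect yModel + sModel * star sModel +
    yModel * sModel * star (yModel * sModel) := by
  rw [defect_yModel, star_mul, star_sModel, star_yModel]
  simp only [yModel, sModel, add_mul, mul_add, ne_eq, Prod.mk.injEq, zero_ne_one, one_ne_zero,
    false_and, and_false, not_false_eq_true, unit_mul_unit,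
    unit_mul_unit_of_ne, add_zero, zero_add, mul_one, one_mul, rootT_mul_self]
  ext t ⟨i₁, i₂⟩ ⟨j₁, j₂⟩
  fin_cases i₁ <;> fin_cases i₂ <;> fin_cases j₁ <;> fin_cases j₂ <;>
    simp [Matrix.single, Matrix.algebraMap_matrix_apply, scal_apply, coord]

/-- The transposed indices. -/
def swapIdx : Equiv.Perm Idx := Equiv.swap (0, 2) (1, 1)

/-- The projection onto the antisymmetric vector of the transposed indices. -/
noncomputable def halfProj : Fib :=
  (2⁻¹ : ℂ) • (Matrix.single (0, 2) (0, 2) 1 + Matrix.single (1, 1) (1, 1) 1 -
    Matrix.single (0, 2) (1, 1) 1 - Matrix.single (1, 1) (0, 2) 1)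

lemma halfProj_sq : halfProj * halfProj = halfProj := by
  have h1 : ((0, 2) : Idx) ≠ (1, 1) := by simp
  have h2 : ((1, 1) : Idx) ≠ (0, 2) := by simp
  simp only [halfProj, Matrix.smul_mul, Matrix.mul_smul, mul_add, add_mul, mul_sub, sub_mul,
    Matrix.single_mul_single_same, mul_one, ne_eq, h1, h2, not_false_eq_true,
    Matrix.single_mul_single_of_ne]
  module

lemma star_halfProj : star halfProj = halfProj := by
  simp only [halfProj, Matrix.star_eq_conjTranspose, Matrix.conjTranspose_smul,
    Matrix.conjTranspose_add, Matrix.conjTranspose_sub, Matrix.conjTranspose_single, star_one,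
    star_inv₀, star_ofNat]
  congr 1
  abel

/-- A unit-modulus function from `-1` to `1`. -/
noncomputable def phase : C(I, ℂ) :=
  ⟨fun t => Complex.exp (((Real.pi * (1 - (t : ℝ)) : ℝ) : ℂ) * Complex.I), by fun_prop⟩

lemma phase_mul_star : phase * star phase = 1 := by
  ext t
  simp only [ContinuousMap.mul_apply, ContinuousMap.star_apply, ContinuousMap.one_apply, phase,
    ContinuousMap.coe_mk, Complex.star_def]
  rw [Complex.mul_conj, Complex.normSq_eq_norm_sq, Complex.norm_exp_ofReal_mul_I]
  simp

/-- The unitary path. -/
noncomputable def path : C(I, Fib) := 1 + scal (phase - 1) * ContinuousMap.const I halfProj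

lemma star_path : star path = 1 + scal (star phase - 1) * ContinuousMap.const I halfProj := by
  have h : star (ContinuousMap.const I halfProj) = ContinuousMap.const I halfProj := by
    ext t : 1
    simp [star_halfProj]
  rw [path, star_add, star_one, star_mul, h, ← map_star, star_sub, star_one, scal_comm]

lemma path_prod (a b : C(I, ℂ)) (hab : a + b + a * b = 0) :
    (1 + scal a * ContinuousMap.const I halfProj) * (1 + scal b * ContinuousMap.const I halfProj)
      = 1 := by
  set P := ContinuousMap.const I halfProj with hP
  have h : P * P = P := by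
    ext t : 1
    simp [hP, halfProj_sq]
  have e : scal a * P * (scal b * P) = scal (a * b) * P := by
    rw [mul_assoc (scal a), ← mul_assoc P, ← scal_comm b P, mul_assoc (scal b), h, map_mul,
      mul_assoc]
  rw [add_mul, one_mul, mul_add, mul_one, e, add_assoc, ← add_mul, ← add_mul, ← map_add,
    ← map_add, show b + (a + a * b) = 0 by rw [← hab]; ring, map_zero, zero_mul, add_zero]

lemma star_path_mul : star path * path = 1 := by
  rw [star_path, path]
  exact path_prod _ _ (by linear_combination phase_mul_star)

lemma path_mul_star : path * star path = 1 := by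
  rw [star_path, path]
  exact path_prod _ _ (by linear_combination phase_mul_star)

lemma path_one : path 1 = 1 := by
  have h : phase 1 = 1 := by simp [phase]
  simp [path, scal_apply, h]

lemma path_zero : path 0 = swapIdx.toPEquiv.toMatrix := by
  have h : phase 0 = -1 := by simp [phase, Complex.exp_pi_mul_I]
  have h2 : path 0 = 1 + (-2 : ℂ) • halfProj := by
    simp [path, scal_apply, h, Algebra.smul_def]
    norm_num [map_ofNat]
  rw [h2]
  ext ⟨i₁, i₂⟩ ⟨j₁, j₂⟩
  fin_cases i₁ <;> fin_cases i₂ <;> fin_cases j₁ <;> fin_cases j₂ <;>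
    simp [halfProj, swapIdx, Matrix.single, PEquiv.toMatrix_apply,
      Equiv.swap_apply_def]

lemma star_path_zero : star (path 0) = path 0 := by
  rw [path_zero, Matrix.star_eq_conjTranspose]
  ext i j
  have h1 : swapIdx i = j ↔ swapIdx j = i := by
    constructor <;> intro h <;> rw [← h] <;> simp [swapIdx]
  simp only [Matrix.conjTranspose_apply, PEquiv.toMatrix_apply, Equiv.toPEquiv_apply,
    Option.mem_some_iff, h1]
  split_ifs <;> simp

lemma conj_path_zero (X : Fib) : path 0 * X * path 0 = X.submatrix swapIdx swapIdx := by
  rw [path_zero, PEquiv.toMatrix_toPEquiv_mul, PEquiv.mul_toMatrix_toPEquiv]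
  ext i j
  simp [swapIdx]

end Vale.Agent.P101.DimDrop
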