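import Vale.Agent.P101.ZTwoThree
import Vale.Agent.P101.DimDrop.Kernel
import Vale.Agent.P101.DimDrop.Path

/-!
P101: universality of Z(2,3): a unital C*-algebra contains a pair with the relations
`DropRelations` exactly when it receives a unital *-homomorphism from Z(2,3).
-/

namespace Vale.Agent.P101.DimDrop

open scoped Matrix Matrix.Norms.L2Operator Kronecker unitInterval

universe u

/-- The columns through which the fibres are generated at `t = 1`. -/
noncomputable def vModel : Fin 3 → C(I, Fib) :=
  ![defect yModel, sModel * defect yModel, yModel * sModel * defect yModel]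

/-- The columns through which the fibres are generated at `t = 0`. -/
noncomputable def wModel : Fin 2 → C(I, Fib) :=
  ![star yModel * yModel - sModel * star sModel,
    yModel * (star yModel * yModel - sModel * star sModel)]

lemma kron_one_single (q r : Fin 3) :
    (1 : Matrix (Fin 2) (Fin 2) ℂ) ⊗ₖ Matrix.single q r (1 : ℂ) =
      Matrix.single ((0 : Fin 2), q) ((0 : Fin 2), r) 1 +
        Matrix.single ((1 : Fin 2), q) ((1 : Fin 2), r) 1 := by
  ext ⟨i₁, i₂⟩ ⟨j₁, j₂⟩
  fin_cases i₁ <;> fin_cases j₁ <;> simp [Matrix.single]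

lemma vModel_one (q : Fin 3) :
    vModel q 1 = Matrix.single (0, q) (0, 0) 1 + Matrix.single (1, q) (1, 0) 1 := by
  unfold vModel
  rw [defect_yModel]
  fin_cases q <;>
    simp [yModel, sModel, rootT, coord, mul_add, add_mul]

lemma vModel_prod_one (q r : Fin 3) : (vModel q * star (vModel r)) 1 =
    (1 : Matrix (Fin 2) (Fin 2) ℂ) ⊗ₖ Matrix.single q r (1 : ℂ) := by
  rw [ContinuousMap.mul_apply, ContinuousMap.star_apply, vModel_one, vModel_one, kron_one_single]
  simp [star_add, Matrix.star_eq_conjTranspose, Matrix.conjTranspose_single, mul_add, add_mul]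

lemma wModel_zero (a : Fin 2) : wModel a 0 =
    ∑ q, Matrix.single (swapIdx (a, q)) (swapIdx (0, q)) 1 := by
  unfold wModel
  rw [star_yModel]
  fin_cases a <;>
    simp [yModel, sModel, rootS, rootT, mul_add, add_mul, Fin.sum_univ_three,
      swapIdx, Equiv.swap_apply_def, add_assoc]

lemma sum_single_swap (a b : Fin 2) :
    (∑ q : Fin 3, Matrix.single (swapIdx (a, q)) (swapIdx (b, q)) (1 : ℂ)) =
      (Matrix.single a b (1 : ℂ) ⊗ₖ (1 : Matrix (Fin 3) (Fin 3) ℂ)).submatrix swapIdx swapIdx := by
  ext i j
  obtain ⟨⟨i₁, i₂⟩, rfl⟩ := swapIdx.surjective i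
  obtain ⟨⟨j₁, j₂⟩, rfl⟩ := swapIdx.surjective j
  simp only [Matrix.submatrix_apply, show ∀ x, swapIdx (swapIdx x) = x by simp [swapIdx]]
  simp only [Matrix.sum_apply, Matrix.single_apply, EmbeddingLike.apply_eq_iff_eq, Prod.mk.injEq,
    Matrix.kronecker_apply, Matrix.one_apply]
  rw [Finset.sum_eq_single i₂]
  · by_cases h : i₂ = j₂ <;> simp [h]
  · intro q _ hq
    simp [hq]
  · simp

lemma wModel_prod_zero (a b : Fin 2) : (wModel a * star (wModel b)) 0 =
    (Matrix.single a b (1 : ℂ) ⊗ₖ (1 : Matrix (Fin 3) (Fin 3) ℂ)).submatrix swapIdx swapIdx := by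
  rw [ContinuousMap.mul_apply, ContinuousMap.star_apply, wModel_zero, wModel_zero,
    ← sum_single_swap]
  simp [star_sum, Matrix.star_eq_conjTranspose, Matrix.conjTranspose_single, Finset.sum_mul,
    Finset.mul_sum]
  rw [Finset.sum_comm]
  refine Finset.sum_congr rfl fun q _ => ?_
  rw [Finset.sum_eq_single q]
  · simp
  · intro r _ hr
    rw [Matrix.single_mul_single_of_ne]
    simp [Ne.symm hr]
  · simp

/-- Everything in the twisted dimension drop algebra lies in a closed algebra containing the
model pair. -/
theorem mem_of_twisted (S : StarSubalgebra ℂ C(I, Fib)) (hS : IsClosed (S : Set C(I, Fib)))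
    (hy : yModel ∈ S) (hs : sModel ∈ S) (g : C(I, Fib)) (a : Matrix (Fin 2) (Fin 2) ℂ)
    (b : Matrix (Fin 3) (Fin 3) ℂ)
    (h0 : g 0 = (a ⊗ₖ (1 : Matrix (Fin 3) (Fin 3) ℂ)).submatrix swapIdx swapIdx)
    (h1 : g 1 = (1 : Matrix (Fin 2) (Fin 2) ℂ) ⊗ₖ b) : g ∈ S := by
  have hd : defect yModel ∈ S :=
    sub_mem (sub_mem (one_mem _) (mul_mem (star_mem hy) hy)) (mul_mem hy (star_mem hy))
  have hcoord : scal coord ∈ S := by
    rw [scal_coord]
    exact add_mem (add_mem hd (mul_mem hs (star_mem hs)))
      (mul_mem (mul_mem hy hs) (star_mem (mul_mem hy hs)))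
  have hscal : ∀ c, scal c ∈ S := by
    intro c
    have htop : (S.comap scal).topologicalClosure = ⊤ :=
      ContinuousMap.starSubalgebra_topologicalClosure_eq_top_of_separatesPoints _ (by
        intro x z hxz
        refine ⟨_, ⟨coord, hcoord, rfl⟩, ?_⟩
        simpa [coord, Subtype.ext_iff] using hxz)
    have hle : (S.comap scal).topologicalClosure ≤ S.comap scal :=
      StarSubalgebra.topologicalClosure_minimal le_rfl (hS.preimage scal_continuous)
    exact hle (htop ▸ StarSubalgebra.mem_top)
  have hX : ∀ i, ∃ c, unit i (0, 0) c ∈ S ∧ ∀ t : I, t ≠ 0 → t ≠ 1 → c t ≠ 0 := by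
    have hbase : unit (0, 0) (0, 0) ((1 - coord) * coord) ∈ S := by
      have e : star yModel * yModel * defect yModel =
          unit (0, 0) (0, 0) ((1 - coord) * coord) := by
        rw [defect_yModel, star_yModel]
        simp [yModel, add_mul, mul_add, unit_mul_unit, unit_mul_unit_of_ne, rootS_mul_self]
      rw [← e]
      exact mul_mem (mul_mem (star_mem hy) hy) hd
    have hy1 : ∀ c, unit (0, 0) (0, 0) c ∈ S → unit (1, 0) (0, 0) (rootS * c) ∈ S := fun c hc => by
      have := mul_mem hy hc
      simpa [yModel, add_mul, unit_mul_unit, unit_mul_unit_of_ne] using this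
    have hs1 : ∀ p c, unit (p, 0) (0, 0) c ∈ S → unit (p, 1) (0, 0) (rootT * c) ∈ S := by
      intro p c hc
      have := mul_mem hs hc
      fin_cases p <;> simpa [sModel, add_mul, unit_mul_unit, unit_mul_unit_of_ne] using this
    have hy2 : ∀ p c, unit (p, 1) (0, 0) c ∈ S → unit (p, 2) (0, 0) c ∈ S := by
      intro p c hc
      have := mul_mem hy hc
      fin_cases p <;> simpa [yModel, add_mul, unit_mul_unit, unit_mul_unit_of_ne] using this
    have hne : ∀ t : I, t ≠ 0 → t ≠ 1 → ((1 - coord) * coord : C(I, ℂ)) t ≠ 0 ∧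
        rootS t ≠ 0 ∧ rootT t ≠ 0 := by
      intro t ht0 ht1
      have h0' : (0 : ℝ) < t := lt_of_le_of_ne t.2.1 (fun h => ht0 (Subtype.ext h.symm))
      have h1' : (t : ℝ) < 1 := lt_of_le_of_ne t.2.2 (fun h => ht1 (Subtype.ext h))
      have h2 : Real.sqrt (1 - t) ≠ 0 := (Real.sqrt_pos.2 (by linarith)).ne'
      have h3 : Real.sqrt (t : ℝ) ≠ 0 := (Real.sqrt_pos.2 h0').ne'
      refine ⟨?_, by simpa [rootS] using h2, by simpa [rootT] using h3⟩
      simp only [ContinuousMap.mul_apply, ContinuousMap.sub_apply, ContinuousMap.one_apply, coord,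
        ContinuousMap.coe_mk]
      exact mul_ne_zero (by exact_mod_cast (sub_ne_zero.2 h1'.ne')) (by exact_mod_cast h0'.ne')
    rintro ⟨p, q⟩
    fin_cases p <;> fin_cases q
    · exact ⟨_, hbase, fun t a b => (hne t a b).1⟩
    · refine ⟨_, hs1 0 _ hbase, fun t a b => ?_⟩
      simpa using mul_ne_zero (hne t a b).2.2 (hne t a b).1
    · refine ⟨_, hy2 0 _ (hs1 0 _ hbase), fun t a b => ?_⟩
      simpa using mul_ne_zero (hne t a b).2.2 (hne t a b).1
    · refine ⟨_, hy1 _ hbase, fun t a b => ?_⟩
      simpa using mul_ne_zero (hne t a b).2.1 (hne t a b).1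
    · refine ⟨_, hs1 1 _ (hy1 _ hbase), fun t a b => ?_⟩
      simpa using mul_ne_zero (hne t a b).2.2 (mul_ne_zero (hne t a b).2.1 (hne t a b).1)
    · refine ⟨_, hy2 1 _ (hs1 1 _ (hy1 _ hbase)), fun t a b => ?_⟩
      simpa using mul_ne_zero (hne t a b).2.2 (mul_ne_zero (hne t a b).2.1 (hne t a b).1)
  have hint : ∀ i j h, h 0 = 0 → h 1 = 0 → unit i j h ∈ S := by
    intro i j h hh0 hh1
    let J : Ideal C(I, ℂ) :=
      { carrier := {h | unit i j h ∈ S}
        add_mem' := fun {x z} hx hz => by
          show unit i j (x + z) ∈ S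
          convert add_mem (show unit i j x ∈ S from hx) (show unit i j z ∈ S from hz) using 1
          ext t : 1
          simp [Matrix.single_add]
        zero_mem' := by
          show unit i j 0 ∈ S
          convert zero_mem S using 1
          ext t : 1
          simp
        smul_mem' := fun c x hx => by
          show unit i j (c * x) ∈ S
          rw [← scal_mul_unit]
          exact mul_mem (hscal c) hx }
    have hJ : IsClosed (J : Set C(I, ℂ)) := by
      refine hS.preimage ?_
      have e : unit i j = ContinuousMap.comp (⟨Matrix.single i j, by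
          refine continuous_matrix fun k l => ?_
          by_cases hkl : i = k ∧ j = l
          · simp only [Matrix.single_apply, if_pos hkl]; fun_prop
          · simp only [Matrix.single_apply, if_neg hkl]; fun_prop⟩ : C(ℂ, Fib)) := rfl
      rw [e]
      exact ContinuousMap.continuous_postcomp _
    have hmem : h ∈ ContinuousMap.idealOfSet ℂ (ContinuousMap.setOfIdeal J) := by
      rw [ContinuousMap.mem_idealOfSet]
      intro t ht
      obtain ⟨c, hc, hcne⟩ := hX i
      obtain ⟨c', hc', hcne'⟩ := hX j
      have hw : c * star c' ∈ J := by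
        show unit i j (c * star c') ∈ S
        rw [← unit_mul_unit i (0, 0) j, ← star_unit]
        exact mul_mem hc (star_mem hc')
      by_contra hne
      have h0' : t ≠ 0 := fun e => hne (e ▸ hh0)
      have h1' : t ≠ 1 := fun e => hne (e ▸ hh1)
      exact ht (ContinuousMap.mem_setOfIdeal.2 ⟨_, hw, by
        simp [hcne t h0' h1', hcne' t h0' h1']⟩)
    rw [ContinuousMap.idealOfSet_ofIdeal_eq_closure, ← SetLike.mem_coe, Ideal.coe_closure,
      hJ.closure_eq] at hmem
    exact hmem
  have hsmul : ∀ (r : ℂ) {x : C(I, Fib)}, x ∈ S → r • x ∈ S := fun r _ hx => SMulMemClass.smul_mem r hx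
  have hv : ∀ q, vModel q ∈ S := by
    intro q
    fin_cases q
    · exact hd
    · exact mul_mem hs hd
    · exact mul_mem (mul_mem hy hs) hd
  have hw : ∀ q, wModel q ∈ S := by
    intro q
    fin_cases q
    · exact sub_mem (mul_mem (star_mem hy) hy) (mul_mem hs (star_mem hs))
    · exact mul_mem hy (sub_mem (mul_mem (star_mem hy) hy) (mul_mem hs (star_mem hs)))
  let L : C(I, Fib) := scal coord * (∑ q, ∑ r, b q r • (vModel q * star (vModel r))) +
    scal (1 - coord) * (∑ p, ∑ r, a p r • (wModel p * star (wModel r)))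
  have hL : L ∈ S := by
    refine add_mem (mul_mem (hscal _) ?_) (mul_mem (hscal _) ?_)
    · exact sum_mem fun q _ => sum_mem fun r _ => hsmul _ (mul_mem (hv q) (star_mem (hv r)))
    · exact sum_mem fun q _ => sum_mem fun r _ => hsmul _ (mul_mem (hw q) (star_mem (hw r)))
  have hL1 : L 1 = g 1 := by
    simp only [L, ContinuousMap.add_apply, ContinuousMap.mul_apply, ContinuousMap.sum_apply,
      ContinuousMap.smul_apply, scal_apply, h1]
    simp only [← ContinuousMap.mul_apply, vModel_prod_one]
    simp only [ContinuousMap.sub_apply, ContinuousMap.one_apply, coord, ContinuousMap.coe_mk,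
      Set.Icc.coe_one, Complex.ofReal_one, map_one, one_mul, sub_self, map_zero, zero_mul,
      add_zero]
    ext ⟨i₁, i₂⟩ ⟨j₁, j₂⟩
    simp [Matrix.sum_apply, Matrix.single_apply, ite_and, mul_comm]
  have hL0 : L 0 = g 0 := by
    simp only [L, ContinuousMap.add_apply, ContinuousMap.mul_apply, ContinuousMap.sum_apply,
      ContinuousMap.smul_apply, scal_apply, h0]
    simp only [← ContinuousMap.mul_apply, wModel_prod_zero]
    simp only [ContinuousMap.sub_apply, ContinuousMap.one_apply, coord, ContinuousMap.coe_mk,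
      Set.Icc.coe_zero, Complex.ofReal_zero, map_one, one_mul, sub_zero, map_zero, zero_mul,
      zero_add]
    ext i j
    simp [Matrix.sum_apply, Matrix.single_apply, ite_and, mul_comm]
    generalize (swapIdx i).1 = p, (swapIdx j).1 = q
    fin_cases p <;> fin_cases q <;> simp
  have hdiff : g - L = ∑ i, ∑ j, unit i j (entry i j (g - L)) := by
    ext t : 1
    simp only [ContinuousMap.sum_apply, unit_apply, entry_apply]
    exact Matrix.matrix_eq_sum_single _
  rw [← sub_add_cancel g L, hdiff]
  refine add_mem (sum_mem fun i _ => sum_mem fun j _ => hint i j _ ?_ ?_) hL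
  · simp [hL0]
  · simp [hL1]

/-- The standard generators of Z(2,3). -/
lemma conj_model_mem :
    star path * yModel * path ∈ ZTwoThree ∧ star path * sModel * path ∈ ZTwoThree := by
  refine ⟨⟨⟨Matrix.single 1 0 1, ?_⟩, ⟨Matrix.single 2 1 1, ?_⟩⟩,
    ⟨⟨0, ?_⟩, ⟨Matrix.single 1 0 1, ?_⟩⟩⟩
  · simp only [ContinuousMap.mul_apply, ContinuousMap.star_apply, star_path_zero, conj_path_zero]
    ext ⟨i₁, i₂⟩ ⟨j₁, j₂⟩
    fin_cases i₁ <;> fin_cases i₂ <;> fin_cases j₁ <;> fin_cases j₂ <;>
      simp [yModel, rootS, swapIdx, Matrix.single, Equiv.swap_apply_def]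
  · simp only [ContinuousMap.mul_apply, ContinuousMap.star_apply, path_one, star_one, one_mul,
      mul_one, kron_one_single]
    simp [yModel, rootS]
  · simp [sModel, rootT, Matrix.single_zero]
  · simp only [ContinuousMap.mul_apply, ContinuousMap.star_apply, path_one, star_one, one_mul,
      mul_one, kron_one_single]
    simp [sModel, rootT]

/-- Universality of Z(2,3). -/
theorem exists_starAlgHom_iff {F : Type u} [CStarAlgebra F] :
    Nonempty (ZTwoThree →⋆ₐ[ℂ] F) ↔ ∃ y s : F, DropRelations y s := by
  constructor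
  · rintro ⟨Φ⟩
    set Y : ZTwoThree := ⟨_, conj_model_mem.1⟩ with hY
    set S : ZTwoThree := ⟨_, conj_model_mem.2⟩ with hS
    have hconj : ∀ A B : C(I, Fib),
        star path * A * path * (star path * B * path) = star path * (A * B) * path := by
      intro A B
      calc star path * A * path * (star path * B * path)
          = star path * A * (path * star path) * B * path := by noncomm_ring
        _ = star path * (A * B) * path := by rw [path_mul_star]; noncomm_ring
    have hst : ∀ A : C(I, Fib), star (star path * A * path) = star path * star A * path := by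
      intro A
      simp [star_mul, mul_assoc]
    have h : DropRelations Y S := by
      obtain ⟨h1, h2, h3⟩ := model_relations
      refine ⟨Subtype.ext ?_, Subtype.ext ?_, Subtype.ext ?_⟩
      · simp only [hY, MulMemClass.coe_mul, ZeroMemClass.coe_zero, hconj, h1]
        simp
      · simp only [hY, hS, MulMemClass.coe_mul, AddSubgroupClass.coe_sub, StarMemClass.coe_star,
          OneMemClass.coe_one, hst, hconj, h2]
        simp [mul_sub, sub_mul, star_path_mul]
      · simp only [hY, hS, MulMemClass.coe_mul, StarMemClass.coe_star, hst, hconj, h3]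
    refine ⟨Φ Y, Φ S, ?_, ?_, ?_⟩
    · rw [← map_mul, h.1, map_zero]
    · simp only [← map_star, ← map_mul, h.2.1, map_sub, map_one]
    · simp only [← map_star, ← map_mul, h.2.2]
  · rintro ⟨y, s, h⟩
    have hcl : IsClosed (graph y s : Set (C(I, Fib) × F)) :=
      StarSubalgebra.isClosed_topologicalClosure _
    let := StarSubalgebra.cstarAlgebra (graph y s) (h_closed := hcl)
    let π : graph y s →⋆ₐ[ℂ] C(I, Fib) := (StarAlgHom.fst ℂ _ _).comp (graph y s).subtype
    have hinj : Function.Injective π := by
      intro a b hab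
      have e : π (a - b) = 0 := by rw [map_sub, hab, sub_self]
      have e2 := graph_snd_eq_zero h (a - b).2 e
      exact sub_eq_zero.1 (Subtype.ext (Prod.ext e e2))
    have hiso : Isometry π := NonUnitalStarAlgHom.isometry π hinj
    have hmem : ∀ f : ZTwoThree, path * (f : C(I, Fib)) * star path ∈ π.range := by
      rintro ⟨f, ⟨a, ha⟩, ⟨b, hb⟩⟩
      refine mem_of_twisted π.range ?_ ?_ ?_ _ a b ?_ ?_
      · show IsClosed (Set.range π)
        exact hiso.isClosedEmbedding.isClosed_range
      · exact ⟨⟨(yModel, y), StarSubalgebra.le_topologicalClosure _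
          (StarAlgebra.subset_adjoin _ _ (Or.inl rfl))⟩, rfl⟩
      · exact ⟨⟨(sModel, s), StarSubalgebra.le_topologicalClosure _
          (StarAlgebra.subset_adjoin _ _ (Or.inr rfl))⟩, rfl⟩
      · simp only [ContinuousMap.mul_apply, ContinuousMap.star_apply, star_path_zero, ha,
          conj_path_zero]
      · simp [path_one, hb]
    have hmem' : ∀ f : ZTwoThree, ∃ g, π g = path * (f : C(I, Fib)) * star path := hmem
    choose k hk using hmem'
    have hk' : ∀ (f : ZTwoThree) g, π g = path * (f : C(I, Fib)) * star path → g = k f := fun f g hg =>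
      hinj (hg.trans (hk f).symm)
    exact ⟨{
      toFun := fun f => (k f : C(I, Fib) × F).2
      map_one' := by
        rw [← hk' 1 1 (by rw [map_one, OneMemClass.coe_one, mul_one, path_mul_star])]
        rfl
      map_mul' := fun f g => by
        rw [← hk' (f * g) (k f * k g) (by
          rw [map_mul, hk, hk, MulMemClass.coe_mul]
          calc path * f.1 * star path * (path * g.1 * star path)
              = path * f.1 * (star path * path) * g.1 * star path := by noncomm_ring
            _ = _ := by rw [star_path_mul]; noncomm_ring)]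
        rfl
      map_zero' := by
        rw [← hk' 0 0 (by rw [map_zero, ZeroMemClass.coe_zero, mul_zero, zero_mul])]
        rfl
      map_add' := fun f g => by
        rw [← hk' (f + g) (k f + k g) (by
          rw [map_add, hk, hk, AddMemClass.coe_add, mul_add, add_mul])]
        rfl
      commutes' := fun r => by
        rw [← hk' (algebraMap ℂ _ r) (algebraMap ℂ _ r) (by
          rw [AlgHomClass.commutes]
          show _ = path * algebraMap ℂ C(I, Fib) r * star path
          rw [← Algebra.commutes, mul_assoc, path_mul_star, mul_one])]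
        rfl
      map_star' := fun f => by
        rw [← hk' (star f) (star (k f)) (by
          rw [map_star, hk, StarMemClass.coe_star]
          simp [star_mul, mul_assoc])]
        rfl }⟩

end Vale.Agent.P101.DimDrop
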