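import Vale.Agent.P101.Defs

/-!
P101: consequences of the relations `DropRelations y s` in a C*-algebra, and the functional
calculus of the defect `d = 1 - y*y - yy*` as a *-homomorphism on `C([0,1], ℂ)`.
-/

namespace Vale.Agent.P101.DimDrop

open scoped unitInterval

universe u

variable {F : Type u} [CStarAlgebra F]

/-- The defect of a square-zero element. -/
def defect (y : F) : F := 1 - star y * y - y * star y

/-- The coordinate function of `[0,1]`. -/
def coord : C(I, ℂ) := ⟨fun t => ((t : ℝ) : ℂ), by fun_prop⟩

/-- The square root of the coordinate function. -/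
noncomputable def rootT : C(I, ℂ) := ⟨fun t => ((Real.sqrt (t : ℝ) : ℝ) : ℂ), by fun_prop⟩

/-- The square root of one minus the coordinate function. -/
noncomputable def rootS : C(I, ℂ) := ⟨fun t => ((Real.sqrt (1 - (t : ℝ)) : ℝ) : ℂ), by fun_prop⟩

lemma rootT_mul_self : rootT * rootT = coord := by
  ext t
  simp only [ContinuousMap.mul_apply, rootT, coord, ContinuousMap.coe_mk]
  rw [← Complex.ofReal_mul, Real.mul_self_sqrt t.2.1]

lemma rootS_mul_self : rootS * rootS = 1 - coord := by
  ext t
  simp only [ContinuousMap.mul_apply, rootS, coord, ContinuousMap.coe_mk,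
    ContinuousMap.sub_apply, ContinuousMap.one_apply]
  rw [← Complex.ofReal_mul, Real.mul_self_sqrt (sub_nonneg.2 t.2.2), Complex.ofReal_sub,
    Complex.ofReal_one]

lemma star_rootT : star rootT = rootT := by
  ext t
  simp [rootT]

lemma star_rootS : star rootS = rootS := by
  ext t
  simp [rootS]

section Rel

variable {y s : F} (h : DropRelations y s)

include h

lemma yy : y * y = 0 := h.1

lemma star_yy : star y * star y = 0 := by
  rw [← star_mul, h.1, star_zero]

lemma star_s_s : star s * s = defect y := h.2.1

lemma P_s : star y * y * s = s := h.2.2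

lemma star_s_P : star s * (star y * y) = star s := by
  have h1 := congrArg star h.2.2
  simpa [star_mul, mul_assoc] using h1

lemma star_y_s : star y * s = 0 := by
  have h1 : star y * (star y * y * s) = 0 := by
    rw [mul_assoc (star y) y s, ← mul_assoc (star y) (star y), star_yy h, zero_mul]
  rwa [P_s h] at h1

lemma star_s_y : star s * y = 0 := by
  have h1 := congrArg star (star_y_s h)
  simpa [star_mul] using h1

lemma isSelfAdjoint_defect : IsSelfAdjoint (defect y) := by
  rw [← star_s_s h]
  exact IsSelfAdjoint.star_mul_self s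

lemma defect_y : defect y * y = y * defect y := by
  have h1 : y * star y * y = y * (star y * y) := mul_assoc _ _ _
  simp only [defect, sub_mul, mul_sub, one_mul, mul_one]
  rw [mul_assoc (star y) y y, yy h, mul_zero, h1, ← mul_assoc y y (star y), yy h, zero_mul]
  noncomm_ring

lemma defect_star_y : defect y * star y = star y * defect y := by
  have h1 := congrArg star (defect_y h)
  simp only [star_mul, (isSelfAdjoint_defect h).star_eq] at h1
  exact h1.symm

lemma defect_P : defect y * (star y * y) = star y * y * defect y := by
  rw [← mul_assoc, defect_star_y h, mul_assoc, defect_y h, ← mul_assoc]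

lemma P_sq : star y * y * (star y * y) = (1 - defect y) * (star y * y) := by
  have h1 : y * star y * (star y * y) = 0 := by
    rw [mul_assoc, ← mul_assoc (star y), star_yy h, zero_mul, mul_zero]
  rw [defect, sub_sub, sub_sub_cancel, add_mul, h1, add_zero]

lemma Q_sq : y * star y * (y * star y) = (1 - defect y) * (y * star y) := by
  have h1 : star y * y * (y * star y) = 0 := by
    rw [mul_assoc, ← mul_assoc y, yy h, zero_mul, mul_zero]
  rw [defect, sub_sub, sub_sub_cancel, add_mul, h1, zero_add]

lemma y_P : y * (star y * y) = (1 - defect y) * y := by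
  rw [defect, sub_sub, sub_sub_cancel, add_mul, mul_assoc (star y), yy h, mul_zero, zero_add,
    mul_assoc]

lemma defect_s : defect y * s = 0 := by
  rw [defect, sub_mul, sub_mul, one_mul, P_s h, mul_assoc, star_y_s h]
  simp

lemma star_s_defect : star s * defect y = 0 := by
  have h1 := congrArg star (defect_s h)
  simpa [star_mul, (isSelfAdjoint_defect h).star_eq] using h1

lemma ss : s * s = 0 := by
  rw [← CStarRing.star_mul_self_eq_zero_iff]
  rw [star_mul, mul_assoc, ← mul_assoc (star s) s s, star_s_s h, defect_s h, mul_zero]

lemma sys : s * y * s = 0 := by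
  rw [← CStarRing.star_mul_self_eq_zero_iff]
  calc star (s * y * s) * (s * y * s) = star s * star y * (star s * s) * y * s := by
        simp only [star_mul]; noncomm_ring
    _ = star s * star y * (defect y * y) * s := by rw [star_s_s h]; noncomm_ring
    _ = star s * (star y * y) * (defect y * s) := by rw [defect_y h]; noncomm_ring
    _ = 0 := by rw [defect_s h, mul_zero]

lemma one_sub_defect_eq : 1 - defect y = star (y + star y) * (y + star y) := by
  rw [star_add, star_star, add_mul, mul_add, mul_add, yy h, star_yy h, defect]
  abel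

lemma spectrum_defect {z : ℂ} (hz : z ∈ spectrum ℂ (defect y)) :
    z = (z.re : ℂ) ∧ z.re ∈ Set.Icc (0 : ℝ) 1 := by
  have h1 : z = (z.re : ℂ) := (isSelfAdjoint_defect h).mem_spectrum_eq_re hz
  have h2 : z.re ∈ spectrum ℝ (defect y) := by
    apply spectrum.of_algebraMap_mem (S := ℂ)
    rw [Complex.coe_algebraMap, ← h1]
    exact hz
  refine ⟨h1, ?_, ?_⟩
  · rw [← star_s_s h] at h2
    exact spectrum_star_mul_self_nonneg _ h2
  · have h3 : 1 - z.re ∈ spectrum ℝ (algebraMap ℝ F 1 - defect y) := by
      rw [← spectrum.singleton_sub_eq]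
      exact Set.sub_mem_sub rfl h2
    rw [map_one, one_sub_defect_eq h] at h3
    linarith [spectrum_star_mul_self_nonneg _ h3]

/-- Functional calculus of the defect, on functions on `[0,1]`. -/
noncomputable def calc01 : C(I, ℂ) →⋆ₐ[ℂ] F :=
  (cfcHom (R := ℂ) (isSelfAdjoint_defect h).isStarNormal).comp
    (ContinuousMap.compStarAlgHom' ℂ ℂ
      (⟨fun z => Set.projIcc 0 1 zero_le_one (z : ℂ).re, by fun_prop⟩ :
        C(spectrum ℂ (defect y), I)))

lemma calc01_continuous : Continuous (calc01 h) :=
  (cfcHom_continuous (isSelfAdjoint_defect h).isStarNormal).comp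
    (ContinuousMap.continuous_precomp _)

lemma calc01_coord : calc01 h coord = defect y := by
  have h1 : ContinuousMap.compStarAlgHom' ℂ ℂ
      (⟨fun z => Set.projIcc 0 1 zero_le_one (z : ℂ).re, by fun_prop⟩ :
        C(spectrum ℂ (defect y), I)) coord =
      (ContinuousMap.id ℂ).restrict (spectrum ℂ (defect y)) := by
    ext z
    have h2 := spectrum_defect h z.2
    show ((Set.projIcc 0 1 zero_le_one (z : ℂ).re : ℝ) : ℂ) = (z : ℂ)
    rw [Set.projIcc_of_mem zero_le_one h2.2]
    exact h2.1.symm
  unfold calc01
  rw [StarAlgHom.comp_apply, h1]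
  exact cfcHom_id _

lemma calc01_commute {x : F} (hx : defect y * x = x * defect y) (f : C(I, ℂ)) :
    Commute (calc01 h f) x := by
  have hd : Commute (defect y) x := hx
  exact Commute.cfcHom (isSelfAdjoint_defect h).isStarNormal hd
    (by rwa [(isSelfAdjoint_defect h).star_eq]) _

lemma calc01_y (f : C(I, ℂ)) : Commute (calc01 h f) y :=
  calc01_commute h (defect_y h) f

lemma calc01_star_y (f : C(I, ℂ)) : Commute (calc01 h f) (star y) :=
  calc01_commute h (defect_star_y h) f

lemma calc01_defect (f : C(I, ℂ)) : Commute (calc01 h f) (defect y) :=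
  calc01_commute h rfl f

lemma calc01_mul_self_rootS : calc01 h rootS * calc01 h rootS = 1 - defect y := by
  rw [← map_mul, rootS_mul_self, map_sub, map_one, calc01_coord h]

lemma calc01_mul_self_rootT : calc01 h rootT * calc01 h rootT = defect y := by
  rw [← map_mul, rootT_mul_self, calc01_coord h]

end Rel

end Vale.Agent.P101.DimDrop
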