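import Vale.Agent.P101.DimDrop.Calc

/-!
P101: the model pair `(yModel, sModel)` in C([0,1], M₆) and the intertwining induction.
Indices `(p, q) : Fin 2 × Fin 3`; the three values of `q` stand for the defect block and for
its images under `s` and `y * s`.
-/

namespace Vale.Agent.P101.DimDrop

open scoped Matrix Matrix.Norms.L2Operator unitInterval

/-- The index type of the fibres. -/
abbrev Idx := Fin 2 × Fin 3

/-- The fibre algebra. -/
abbrev Fib := Matrix Idx Idx ℂ

/-- A function placed in one matrix entry. -/
noncomputable def unit (a b : Idx) (c : C(I, ℂ)) : C(I, Fib) :=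
  ⟨fun t => Matrix.single a b (c t), by
    refine continuous_matrix fun i j => ?_
    by_cases hij : a = i ∧ b = j
    · simp only [Matrix.single_apply, if_pos hij]
      fun_prop
    · simp only [Matrix.single_apply, if_neg hij]
      fun_prop⟩

@[simp] lemma unit_apply (a b : Idx) (c : C(I, ℂ)) (t : I) :
    unit a b c t = Matrix.single a b (c t) := rfl

lemma star_unit (a b : Idx) (c : C(I, ℂ)) : star (unit a b c) = unit b a (star c) := by
  ext t : 1
  simp [Matrix.star_eq_conjTranspose, Matrix.conjTranspose_single]

lemma unit_mul_unit (a b e : Idx) (c c' : C(I, ℂ)) :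
    unit a b c * unit b e c' = unit a e (c * c') := by
  ext t : 1
  simp

lemma unit_mul_unit_of_ne {a b b' e : Idx} (hb : b ≠ b') (c c' : C(I, ℂ)) :
    unit a b c * unit b' e c' = 0 := by
  ext t : 1
  simp [hb]

/-- The square-zero model element. -/
noncomputable def yModel : C(I, Fib) :=
  unit (1, 0) (0, 0) rootS + (unit (0, 2) (0, 1) 1 + unit (1, 2) (1, 1) 1)

/-- The isometry-like model element. -/
noncomputable def sModel : C(I, Fib) :=
  unit (0, 1) (0, 0) rootT + unit (1, 1) (1, 0) rootT

lemma star_yModel : star yModel =
    unit (0, 0) (1, 0) rootS + (unit (0, 1) (0, 2) 1 + unit (1, 1) (1, 2) 1) := by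
  simp [yModel, star_add, star_unit, star_rootS]

lemma star_sModel : star sModel = unit (0, 0) (0, 1) rootT + unit (1, 0) (1, 1) rootT := by
  simp [sModel, star_add, star_unit, star_rootT]

/-- A matrix entry of a continuous field, as a function. -/
noncomputable def entry (i j : Idx) (f : C(I, Fib)) : C(I, ℂ) :=
  ⟨fun t => f t i j, by fun_prop⟩

@[simp] lemma entry_apply (i j : Idx) (f : C(I, Fib)) (t : I) : entry i j f t = f t i j := rfl

lemma entry_continuous (i j : Idx) : Continuous (entry i j) := by
  have h : entry i j = ContinuousMap.comp (⟨fun m : Fib => m i j, by fun_prop⟩ : C(Fib, ℂ)) := by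
    funext f
    ext t
    rfl
  rw [h]
  exact ContinuousMap.continuous_postcomp _

lemma entry_add (i j : Idx) (f g : C(I, Fib)) :
    entry i j (f + g) = entry i j f + entry i j g := by
  ext t
  simp

lemma entry_mul (i j : Idx) (f g : C(I, Fib)) :
    entry i j (f * g) = ∑ k, entry i k f * entry k j g := by
  ext t
  simp [Matrix.mul_apply]

lemma entry_algebraMap (i j : Idx) (r : ℂ) :
    entry i j (algebraMap ℂ C(I, Fib) r) = if i = j then algebraMap ℂ C(I, ℂ) r else 0 := by
  ext t
  simp only [entry_apply, Algebra.algebraMap_eq_smul_one, ContinuousMap.smul_apply,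
    ContinuousMap.one_apply, Matrix.smul_apply, Matrix.one_apply]
  split_ifs <;> simp

lemma entry_unit (i j a b : Idx) (c : C(I, ℂ)) :
    entry i j (unit a b c) = if a = i ∧ b = j then c else 0 := by
  ext t
  simp only [entry_apply, unit_apply, Matrix.single_apply]
  split_ifs <;> simp

section Intertwine

universe u

variable {F : Type u} [CStarAlgebra F] (θ : C(I, ℂ) →⋆ₐ[ℂ] F) (u : Idx → F)

/-- The expected image of `u j` under an element with model component `f`. -/
noncomputable def column (f : C(I, Fib)) (j : Idx) : F := ∑ i, u i * θ (entry i j f)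

lemma column_add (f g : C(I, Fib)) (j : Idx) :
    column θ u (f + g) j = column θ u f j + column θ u g j := by
  simp [column, entry_add, mul_add, Finset.sum_add_distrib]

lemma column_unit (a b : Idx) (c : C(I, ℂ)) (j : Idx) :
    column θ u (unit a b c) j = if b = j then u a * θ c else 0 := by
  unfold column
  simp only [entry_unit]
  by_cases hb : b = j
  · simp only [hb, and_true, if_true]
    rw [Finset.sum_eq_single a]
    · simp
    · intro i _ hi
      simp [Ne.symm hi]
    · simp
  · simp [hb]

/-- If a set `N`, closed, stable under right multiplication and under left multiplication by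
the algebra, has the intertwining property on generators, then it has it on the closed algebra. -/
theorem intertwine {gens : Set (C(I, Fib) × F)} {N : Submodule ℂ F} (hN : IsClosed (N : Set F))
    (hR : ∀ x ∈ N, ∀ z, x * z ∈ N)
    (hL : ∀ g ∈ StarAlgebra.adjoin ℂ gens, ∀ x ∈ N, g.2 * x ∈ N)
    (hθ : Continuous θ)
    (hgen : ∀ g ∈ gens ∪ star gens, ∀ j, g.2 * u j - column θ u g.1 j ∈ N)
    {g : C(I, Fib) × F} (hg : g ∈ (StarAlgebra.adjoin ℂ gens).topologicalClosure) (j : Idx) :
    g.2 * u j - column θ u g.1 j ∈ N := by
  let P : C(I, Fib) × F → Prop := fun g => ∀ j, g.2 * u j - column θ u g.1 j ∈ N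
  have hclosed : IsClosed {g | P g} := by
    simp only [P, Set.ofPred_forall]
    refine isClosed_iInter fun j => hN.preimage ?_
    refine (continuous_snd.mul continuous_const).sub ?_
    unfold column
    exact continuous_finsetSum _ fun i _ =>
      continuous_const.mul (hθ.comp ((entry_continuous i j).comp continuous_fst))
  have hmem : ∀ g ∈ Algebra.adjoin ℂ (gens ∪ star gens), P g := by
    intro g hg
    induction hg using Algebra.adjoin_induction with
    | mem x hx => exact hgen x hx
    | algebraMap r =>
      intro j
      have h1 : column θ u (algebraMap ℂ (C(I, Fib) × F) r).1 j = u j * algebraMap ℂ F r := by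
        simp only [column, Prod.algebraMap_apply, entry_algebraMap]
        rw [Finset.sum_eq_single j]
        · simp [AlgHomClass.commutes]
        · intro i _ hi
          simp [hi]
        · simp
      rw [h1, Prod.algebraMap_apply, Algebra.commutes, sub_self]
      exact N.zero_mem
    | add x z _ _ hx hz =>
      intro j
      rw [Prod.fst_add, Prod.snd_add, column_add, add_mul, add_sub_add_comm]
      exact N.add_mem (hx j) (hz j)
    | mul x z hx' hz' hx hz =>
      intro j
      have hxA : x ∈ StarAlgebra.adjoin ℂ gens := by
        rw [← StarSubalgebra.mem_toSubalgebra, StarAlgebra.adjoin_toSubalgebra]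
        exact hx'
      have e : (x * z).2 * u j - column θ u (x * z).1 j =
          x.2 * (z.2 * u j - column θ u z.1 j) +
            ∑ i, (x.2 * u i - column θ u x.1 i) * θ (entry i j z.1) := by
        simp only [Prod.fst_mul, Prod.snd_mul, column, entry_mul, map_sum, map_mul, mul_sub,
          sub_mul, Finset.sum_sub_distrib, Finset.mul_sum, Finset.sum_mul, mul_assoc]
        rw [Finset.sum_comm (γ := Idx)]
        abel
      rw [e]
      exact N.add_mem (hL x hxA _ (hz j)) (N.sum_mem fun i _ => hR _ (hx i) _)
  refine closure_minimal (fun x hx => hmem x ?_) hclosed hg j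
  rwa [← StarAlgebra.adjoin_toSubalgebra, StarSubalgebra.mem_toSubalgebra]

end Intertwine

end Vale.Agent.P101.DimDrop
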